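import Vale.Agent.P155.SW905.Expl
import Vale.Agent.P155.H878.Lat
import Vale.Agent.P155.L.Expl

/-!
# P155, SW, block 2: the macroscopic layer

`kkd δ a A ω`: the closed set `A` together with everything enclosed by the loops which have a vertex
in `A`.  If `kkd δ a A ω` does not meet `Bm`, then it is not changed when `ω` is changed at the
vertices in `Bm`; hence every function of it, multiplied by the indicator of this event, is invariant.
-/

namespace Vale.Agent.P155.SW733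

open Vale.Agent.P155 Q1 SW905 LatCycle

/-- the lattice points in a set -/
def vs (δ : ℝ) (a : ℂ) (A : Set ℂ) : Set Pt := {v | Q1.pt δ a v ∈ A}

/-- the discrete explored set -/
def kkd (δ : ℝ) (a : ℂ) (A : Set ℂ) (ω : Conf) : Set ℂ := A ∪ region δ a (FS (vs δ a A) ω)

/-- all faces of `C` are surrounded by loops which avoid `B` -/
def AV (B C : Set Pt) (ω : Conf) : Prop := ∀ f ∈ C, ∃ L ∈ Loops ω, (∀ v ∈ L, v ∉ B) ∧ surr ω L f

variable {V : Finset Pt} {ω ω' : Conf} {δ : ℝ} {a : ℂ} {A Bm : Set ℂ}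

/-- every vertex of a loop is the corner of a surrounded face -/
theorem face_of_mem (hδ : 0 < δ) (hω : ω ∈ DD V) {L : Set Pt} (hL : L ∈ Loops ω) {v : Pt}
    (hv : v ∈ L) : ∃ F, surr ω L F ∧ Q1.pt δ a v ∈ sqr δ a F := by
  obtain ⟨γ, h1, _, h3, _⟩ := A1.exists_cycle' hω hL
  rw [← h1] at hv
  obtain ⟨i, rfl⟩ := hv
  obtain ⟨F, hF, hFi⟩ := edge_inside (γ := γ) i
  exact ⟨F, (h3 F).2 hFi, pt_mem_sqr hδ hF.1⟩

theorem mem_kkd_of_loop (hδ : 0 < δ) (hω : ω ∈ DD V) {L : Set Pt} (hL : L ∈ LS (vs δ a A) ω)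
    {v : Pt} (hv : v ∈ L) : Q1.pt δ a v ∈ kkd δ a A ω := by
  obtain ⟨F, hF, hvF⟩ := face_of_mem (a := a) hδ hω hL.1 hv
  right
  unfold region
  rw [Set.mem_iUnion₂]
  exact ⟨F, ⟨L, hL, hF⟩, hvF⟩

theorem free_of_disjoint (hδ : 0 < δ) (hω : ω ∈ DD V) (h : Disjoint (kkd δ a A ω) Bm) :
    Free (vs δ a A) (vs δ a Bm) ω := by
  refine ⟨fun s hs hsB => ?_, fun L hL v hv hvB => ?_⟩
  · exact Set.disjoint_left.1 h (Or.inl hs) hsB
  · exact Set.disjoint_left.1 h (mem_kkd_of_loop hδ hω hL hv) hvB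

/-- the explored set does not change -/
theorem kkd_eq (hδ : 0 < δ) (hω : ω ∈ DD V) (hω' : ω' ∈ DD V) (he : Eqv (vs δ a Bm) ω ω')
    (h : Disjoint (kkd δ a A ω) Bm) : kkd δ a A ω' = kkd δ a A ω := by
  unfold kkd
  rw [FS_eq hω' (free_of_disjoint hδ hω h) he]

/-- the event does not change -/
theorem disjoint_iff (hδ : 0 < δ) (hω : ω ∈ DD V) (hω' : ω' ∈ DD V) (he : Eqv (vs δ a Bm) ω ω') :
    Disjoint (kkd δ a A ω') Bm ↔ Disjoint (kkd δ a A ω) Bm := by
  constructor
  · intro h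
    rw [kkd_eq hδ hω' hω he.symm h]
    exact h
  · intro h
    rw [kkd_eq hδ hω hω' he h]
    exact h

/-- being surrounded by loops avoiding `B` does not change -/
theorem AV_iff {B C : Set Pt} (he : Eqv B ω ω') : AV B C ω' ↔ AV B C ω := by
  unfold AV
  constructor
  · intro h f hf
    obtain ⟨L, hL, hB, hs⟩ := h f hf
    exact ⟨L, loop_of he.symm hL hB, hB, (surr_iff he.symm hB f).2 hs⟩
  · intro h f hf
    obtain ⟨L, hL, hB, hs⟩ := h f hf
    exact ⟨L, loop_of he hL hB, hB, (surr_iff he hB f).2 hs⟩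

open Classical in
/-- **Block 2.** The functions allowed in block 1: `g` of the explored set, restricted to the event
that the explored set does not meet `Bm` and that all faces of `C` are surrounded by loops avoiding
`Bm`. -/
theorem inv_F {E : Type*} [Zero E] (hδ : 0 < δ) (g : Set ℂ → E) (C : Set Pt) :
    ∀ ω ∈ DD V, ∀ ω' ∈ DD V, (∀ v, v ∉ vs δ a Bm → ω'.1 v = ω.1 v ∧ ω'.2 v = ω.2 v) →
      (if Disjoint (kkd δ a A ω') Bm ∧ AV (vs δ a Bm) C ω' then g (kkd δ a A ω') else 0) =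
      (if Disjoint (kkd δ a A ω) Bm ∧ AV (vs δ a Bm) C ω then g (kkd δ a A ω) else 0) := by
  intro ω hω ω' hω' he
  have he' : Eqv (vs δ a Bm) ω ω' := he
  by_cases h : Disjoint (kkd δ a A ω) Bm ∧ AV (vs δ a Bm) C ω
  · have h' : Disjoint (kkd δ a A ω') Bm ∧ AV (vs δ a Bm) C ω' :=
      ⟨(disjoint_iff hδ hω hω' he').2 h.1, (AV_iff he').2 h.2⟩
    rw [if_pos h, if_pos h', kkd_eq hδ hω hω' he' h.1]
  · have h' : ¬ (Disjoint (kkd δ a A ω') Bm ∧ AV (vs δ a Bm) C ω') := fun hh =>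
      h ⟨(disjoint_iff hδ hω hω' he').1 hh.1, (AV_iff he').1 hh.2⟩
    rw [if_neg h, if_neg h']

/-! ### comparison with the loops of level one -/

/-- `A` together with everything enclosed by the loops of level one which have a vertex in `A'` -/
def kk1 (δ : ℝ) (a : ℂ) (A A' : Set ℂ) (ω : Conf) : Set ℂ :=
  A ∪ ⋃ L ∈ {L | L ∈ Loops ω ∧ level ω L = 1 ∧ ∃ v ∈ L, Q1.pt δ a v ∈ A'},
    region δ a (P155.L.intr ω L)

theorem kk1_sub : kk1 δ a A A ω ⊆ kkd δ a A ω := by
  intro z hz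
  rcases hz with hz | hz
  · exact Or.inl hz
  · right
    rw [Set.mem_iUnion₂] at hz
    obtain ⟨L, ⟨hL, _, v, hv, hvA⟩, hz⟩ := hz
    unfold region at hz ⊢
    rw [Set.mem_iUnion₂] at hz ⊢
    obtain ⟨f, hf, hz⟩ := hz
    exact ⟨f, ⟨L, ⟨hL, v, hvA, hv⟩, hf⟩, hz⟩

/-- if `A` is connected and not contained in the polygon, the explored set is enclosed by the loops
of level one which come `2 δ`-close to `A` -/
theorem kkd_sub (hδ : 0 < δ) (hω : ω ∈ DD V) (hA : IsPreconnected A) {w0 : ℂ} (hw0 : w0 ∈ A)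
    (hoff : ∀ f, w0 ∈ sqr δ a f → ∀ L ∈ Loops ω, ¬ surr ω L f) :
    kkd δ a A ω ⊆ kk1 δ a A (Metric.cthickening (2 * δ) A) ω := by
  intro z hz
  rcases hz with hz | hz
  · exact Or.inl hz
  · right
    unfold region at hz
    rw [Set.mem_iUnion₂] at hz
    obtain ⟨f, ⟨L, ⟨hL, s, hs, hsL⟩, hf⟩, hz⟩ := hz
    -- the loop of level one around `L`
    have hN : 1 ≤ N ω f := by
      have h1 : 1 ≤ level ω L := (P155.L.laminar hω).one_le_lev hL
      exact h1.trans (P155.L.level_le_N hω hf)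
    obtain ⟨L1, hL1, hf1, hl1⟩ := (P155.L.laminar hω).exists_lev le_rfl hN
    have hLL : ∀ g, surr ω L g → surr ω L1 g := by
      rcases Nat.lt_or_ge 1 (level ω L) with h2 | h2
      · obtain ⟨L', hL', hk, hs'⟩ := (P155.L.laminar hω).exists_above hL le_rfl h2
        have : L1 = L' := loop_unique hω hL1 hL' (hl1.trans hk.symm) hf1 (hs'.1 hf)
        rw [this]
        exact fun g hg => hs'.1 hg
      · have h3 : level ω L = 1 := le_antisymm h2 ((P155.L.laminar hω).one_le_lev hL)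
        have : L1 = L := loop_unique hω hL1 hL (hl1.trans h3.symm) hf1 hf
        rw [this]
        exact fun g hg => hg
    rw [Set.mem_iUnion₂]
    refine ⟨L1, ⟨hL1, hl1, ?_⟩, ?_⟩
    · -- a vertex of `L1` is close to `A`
      by_contra hcon
      push Not at hcon
      have hfar : ∀ w ∈ A, ∀ v ∈ L1, 2 * δ < dist w (Q1.pt δ a v) := by
        intro w hw v hv
        by_contra hle
        push Not at hle
        apply hcon v hv
        refine Metric.mem_cthickening_of_dist_le _ w _ _ hw ?_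
        rw [dist_comm]
        exact hle
      obtain ⟨F, hF, hsF⟩ := face_of_mem (a := a) hδ hω hL hsL
      have hF1 := hLL F hF
      -- the point of the vertex `s` is in the polygon of `L1`
      have hsR : Q1.pt δ a s ∈ region δ a (P155.L.intr ω L1) := by
        unfold region
        rw [Set.mem_iUnion₂]
        exact ⟨F, hF1, hsF⟩
      have hsI : Q1.pt δ a s ∈ interior (region δ a (P155.L.intr ω L1)) := by
        by_contra hni
        obtain ⟨v, hv, hd⟩ := near_vert hδ hω hL1 hsR hni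
        exact absurd (hfar _ hs v hv) (not_lt.2 hd)
      have hsZ : surrZ δ a ω L1 (Q1.pt δ a s) :=
        (KConn.mem_interior_region_iff hδ).1 hsI _ (mem_sqr_cell hδ _)
      have h0 := surrZ_conn hδ hω hL1 hA hfar hs hw0 hsZ
      exact hoff _ (mem_sqr_cell hδ w0) L1 hL1 h0
    · unfold region
      rw [Set.mem_iUnion₂]
      exact ⟨f, hf1, hz⟩

end Vale.Agent.P155.SW733
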