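import Vale.Agent.P155.SW733.Lim
import Vale.Agent.P155.EX.Main3

/-!
# P155, SW, block 3a: convergence of the distances to the explored sets, final form
-/

namespace Vale.Agent.P155.SW733

open Topology Filter MeasureTheory TopologicalSpace Vale.Agent.P155 Q1 SW905 LatCycle

variable {Ω : Set ℂ} {S : TempApprox Ω} {n : ℕ → ℕ} {ω : ℕ → Conf} {G : ℕ → NonemptyCompacts ℂ}

/-- **Block 3a, final form.** -/
theorem conv_KK' (hp : EX.Pre Ω S n ω G) {K : Set ℂ} (hK : IsClosed K)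
    (hc : IsConnected K) (hΩK : Ωᶜ ⊆ K) {t : ℝ} (ht : 0 < t) (hgt : SW814.GoodT Ω (G 1) K t)
    {ε : ℝ} (hε : 0 < ε) : ∀ᶠ j in atTop, ∀ z,
    |Metric.infDist z (kkd (S.δ (n j)) (S.a (n j)) (Metric.cthickening t K) (ω j)) -
      Metric.infDist z (SW814.KK Ω (G 1) K t)| ≤ ε :=
  conv_KK hp (EX.holeLoops_of_pre EX.jord hp) hK hc hΩK ht hgt hε

theorem tendsto_KK' (hp : EX.Pre Ω S n ω G) {K : Set ℂ} (hK : IsClosed K)
    (hc : IsConnected K) (hΩK : Ωᶜ ⊆ K) {t : ℝ} (ht : 0 < t) (hgt : SW814.GoodT Ω (G 1) K t)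
    (z : ℂ) : Tendsto (fun j =>
      Metric.infDist z (kkd (S.δ (n j)) (S.a (n j)) (Metric.cthickening t K) (ω j))) atTop
      (𝓝 (Metric.infDist z (SW814.KK Ω (G 1) K t))) :=
  tendsto_KK hp (EX.holeLoops_of_pre EX.jord hp) hK hc hΩK ht hgt z

end Vale.Agent.P155.SW733
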