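import Vale.Agent.P155.SW733.Macro
import Vale.Agent.P155.EX.Fin
import Vale.Agent.P155.EX.Same
import Vale.Agent.P155.EX.Coll

/-!
# P155, SW, block 3a: the discrete explored set converges to the continuum explored set

`HKK Ω G1 A`: the closed set `A` together with the closures of the holes of `G1` whose closure meets
`A`.  Along a good sequence, `kkd δ a A ω` and `HKK Ω (G 1) A` are eventually contained in small
neighbourhoods of each other, if `A` is generic: the boundary of every hole whose closure meets `A`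
meets the interior of `A`.
-/

namespace Vale.Agent.P155.SW733

open Topology Filter MeasureTheory TopologicalSpace Vale.Agent.P155 Q1 SW905 LatCycle

/-- the continuum explored set -/
def HKK (Ω G1 A : Set ℂ) : Set ℂ :=
  A ∪ ⋃ U ∈ {U | IsHole Ω G1 U ∧ (closure U ∩ A).Nonempty}, closure U

section lattice

variable {V : Finset Pt} {ω : Conf} {δ : ℝ} {a : ℂ}

/-- the vertices are on the curve -/
theorem vert_mem (hω : ω ∈ DD V) (a : ℂ) (δ : ℝ) {v u : Pt} (hv : ω.1 v ≠ ω.2 v)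
    (hu : u ∈ comp ω v) : ∃ t : S1, (lcurve δ a ω v).c t = Q1.pt δ a u := by
  have hvV := mem_V_of_loop hω hv
  obtain ⟨i, hi⟩ := exists_cycP hω hvV hu
  have hN0 : 0 < (comp ω v).ncard := ncard_pos hω hvV
  have hNr : ((comp ω v).ncard : ℝ) ≠ 0 := by exact_mod_cast hN0.ne'
  refine ⟨(((i : ℝ) / ((comp ω v).ncard : ℝ) : ℝ) : S1), ?_⟩
  rw [EX.lcurve_coe, mul_div_cancel₀ _ hNr, poly_int, cyc_eq, hi]

/-- the vertices of a loop close to `J` are close to the trace of `J` -/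
theorem vert_near (hω : ω ∈ DD V) {v u : Pt} (hv : ω.1 v ≠ ω.2 v) (hu : u ∈ comp ω v) {J : PL}
    {r : ℝ} (h : dist (lcurve δ a ω v) J < r) {B : Set ℂ} (hJ : Set.range J.c ⊆ B) :
    Metric.infDist (Q1.pt δ a u) B < r := by
  obtain ⟨φ, hφ⟩ := exists_lt (γ := lcurve δ a ω v) (γ' := J) h
  obtain ⟨t, ht⟩ := vert_mem hω a δ hv hu
  have h1 := ContinuousMap.dist_apply_le_dist (f := (lcurve δ a ω v).c)
    (g := J.c.comp (φ : C(S1, S1))) t
  rw [ht] at h1
  have h2 : J.c (φ t) ∈ B := hJ ⟨φ t, rfl⟩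
  refine (Metric.infDist_le_dist_of_mem h2).trans_lt (lt_of_le_of_lt ?_ hφ)
  exact h1

/-- two distant vertices make a macroscopic curve -/
theorem diam_ge (hω : ω ∈ DD V) {v x y : Pt} (hv : ω.1 v ≠ ω.2 v) (hx : x ∈ comp ω v)
    (hy : y ∈ comp ω v) : dist (Q1.pt δ a x) (Q1.pt δ a y) ≤ (lcurve δ a ω v).diam := by
  obtain ⟨s, hs⟩ := vert_mem hω a δ hv hx
  obtain ⟨t, ht⟩ := vert_mem hω a δ hv hy
  rw [← hs, ← ht]
  exact PL.dist_le_diam _ _ _

/-- a point of the polygon of `L` far from the vertices is in the open polygon -/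
theorem surrZ_of_far (hδ : 0 < δ) (hω : ω ∈ DD V) {L : Set Pt} (hL : L ∈ Loops ω) {p : ℂ}
    (hp : p ∈ region δ a (P155.L.intr ω L)) (hfar : ∀ v ∈ L, 2 * δ < dist p (Q1.pt δ a v)) :
    surrZ δ a ω L p := by
  have hI : p ∈ interior (region δ a (P155.L.intr ω L)) := by
    by_contra hni
    obtain ⟨v, hv, hd⟩ := near_vert hδ hω hL hp hni
    exact absurd (hfar v hv) (not_lt.2 hd)
  exact (KConn.mem_interior_region_iff hδ).1 hI _ (mem_sqr_cell hδ _)

/-- a loop whose polygon contains a point `p` at distance `≥ s` from one of its vertices has two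
vertices at distance `≥ s / 4` -/
theorem exists_pair (hδ : 0 < δ) (hω : ω ∈ DD V) {L : Set Pt} (hL : L ∈ Loops ω) {p : ℂ} {s : ℝ}
    (hp : p ∈ region δ a (P155.L.intr ω L)) {v : Pt} (hv : v ∈ L)
    (hs : s ≤ dist p (Q1.pt δ a v)) (h8 : 16 * δ < s) :
    ∃ x ∈ L, ∃ y ∈ L, s / 4 ≤ dist (Q1.pt δ a x) (Q1.pt δ a y) := by
  by_cases h : ∃ u ∈ L, dist p (Q1.pt δ a u) < s / 2
  · obtain ⟨u, hu, hd⟩ := h
    refine ⟨u, hu, v, hv, ?_⟩
    have := dist_triangle p (Q1.pt δ a u) (Q1.pt δ a v)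
    linarith
  · push Not at h
    have hz := surrZ_of_far hδ hω hL hp (fun u hu => lt_of_lt_of_le (by linarith) (h u hu))
    obtain ⟨x, hx, y, hy, hd⟩ := EX.exists_far_pair hδ hω hL hz h (by linarith)
    exact ⟨x, hx, y, hy, by linarith⟩

end lattice

variable {Ω : Set ℂ} {S : TempApprox Ω} {n : ℕ → ℕ} {ω : ℕ → Conf} {G : ℕ → NonemptyCompacts ℂ}
  {Γ : LoopColl}

theorem region_sub_face (hg : Good Ω S n ω G) (j : ℕ) {L : Set Pt} (hL : L ∈ Loops (ω j)) :
    region (S.δ (n j)) (S.a (n j)) (P155.L.intr (ω j) L) ⊆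
      region (S.δ (n j)) (S.a (n j)) (S.T (n j)).faceSet := by
  intro z hz
  unfold region at hz ⊢
  rw [Set.mem_iUnion₂] at hz ⊢
  obtain ⟨f, hf, hz⟩ := hz
  exact ⟨f, A1.L_in (hg.mem j) hL hf, hz⟩

/-- the polygons of loops are in small neighbourhoods of `Ω` -/
theorem region_near (hg : Good Ω S n ω G) {ε : ℝ} (hε : 0 < ε) : ∀ᶠ j in atTop,
    ∀ L ∈ Loops (ω j), region (S.δ (n j)) (S.a (n j)) (P155.L.intr (ω j) L) ⊆
      Metric.thickening ε Ω := by
  filter_upwards [hg.lim.eventually (S.outer ε hε)] with j hj L hL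
  exact (region_sub_face hg j hL).trans hj

/-- **The polygons of the loops around a hole are close to the hole (from inside).** -/
theorem region_sub (hg : Good Ω S n ω G) {k : ℕ} (hk : 1 ≤ k) {z : ℂ}
    (hz : z ∈ Ω \ (G k : Set ℂ))
    (hin : frontier (connectedComponentIn (Ω \ (G k : Set ℂ)) z) ⊆ Ω) {J : PL}
    (hJ : IsJordan J (frontier (connectedComponentIn (Ω \ G k) z))) {ρ : ℝ} (hρ : 0 < ρ) :
    ∀ᶠ j in atTop, ∀ v, (ω j).1 v ≠ (ω j).2 v → level (ω j) (comp (ω j) v) = k →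
      surrZ (S.δ (n j)) (S.a (n j)) (ω j) (comp (ω j) v) z →
      region (S.δ (n j)) (S.a (n j)) (P155.L.intr (ω j) (comp (ω j) v)) ⊆
        Metric.thickening ρ (closure (connectedComponentIn (Ω \ (G k : Set ℂ)) z)) := by
  set U := connectedComponentIn (Ω \ (G k : Set ℂ)) z with hU
  by_contra hcon
  obtain ⟨φ, v, hφ, hv⟩ := exists_subseq_not hcon
  simp only [Classical.not_imp, Set.not_subset] at hv
  choose hv1 hv2 hv3 p hp hpU using hv
  have hg1 := hg.sub hφ.tendsto_atTop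
  have hne : (closure U).Nonempty := ⟨z, subset_closure (mem_connectedComponentIn hz)⟩
  -- the points are bounded
  have hbdd : ∀ᶠ j in atTop, p j ∈ Metric.cthickening 1 Ω := by
    filter_upwards [region_near hg1 one_pos] with j hj
    exact Metric.thickening_subset_cthickening _ _ (hj _ (comp_mem_Loops (hv1 j)) (hp j))
  have hcomp : IsCompact (Metric.cthickening 1 Ω) :=
    Metric.isCompact_of_isClosed_isBounded Metric.isClosed_cthickening (hg.bdd.cthickening)
  obtain ⟨p0, -, ψ, hψ, hlim⟩ := hcomp.tendsto_subseq' (x := p) hbdd.frequently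
  have hg2 := hg1.sub hψ.tendsto_atTop
  have hpd : ∀ j, ρ ≤ Metric.infDist (p j) (closure U) := by
    intro j
    by_contra h
    push Not at h
    exact hpU j (Metric.mem_thickening_iff_infDist_lt hne |>.2 h)
  have hp0d : ρ ≤ Metric.infDist p0 (closure U) := by
    refine ge_of_tendsto' ((Metric.continuous_infDist_pt (closure U)).continuousAt.tendsto.comp hlim)
      fun j => ?_
    exact hpd (ψ j)
  -- the vertices are close to the boundary of the hole
  have hvert : ∀ᶠ j in atTop, ∀ u ∈ comp (ω (φ (ψ j))) (v (ψ j)),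
      Metric.infDist (Q1.pt (S.δ (n (φ (ψ j)))) (S.a (n (φ (ψ j)))) u) (closure U) < ρ / 4 := by
    filter_upwards [m1_unif hg2 hk hz hin hJ (show 0 < ρ / 8 by positivity)] with j hj u hu
    have h1 := hj (v (ψ j)) (hv1 _) (hv2 _) (hv3 _)
    have hB : Set.range J.c ⊆ closure U := by
      rw [hJ.2]
      exact frontier_subset_closure
    exact vert_near (hg2.mem j) (hv1 (ψ j)) hu (lt_of_le_of_lt h1 (by linarith)) hB
  -- everything near `p0` is surrounded
  have hball : ∀ᶠ j in atTop, ∀ w ∈ Metric.ball p0 (ρ / 2),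
      surrZ (S.δ (n (φ (ψ j)))) (S.a (n (φ (ψ j)))) (ω (φ (ψ j)))
        (comp (ω (φ (ψ j))) (v (ψ j))) w := by
    filter_upwards [hvert, hg2.delta_lt (show 0 < ρ / 16 by positivity),
      (Metric.tendsto_nhds.1 hlim) (ρ / 2) (by positivity)] with j h1 h2 h3 w hw
    have hfar : ∀ w ∈ Metric.ball p0 (ρ / 2), ∀ u ∈ comp (ω (φ (ψ j))) (v (ψ j)),
        2 * S.δ (n (φ (ψ j))) < dist w (Q1.pt (S.δ (n (φ (ψ j)))) (S.a (n (φ (ψ j)))) u) := by
      intro w hw u hu
      have h4 := h1 u hu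
      rw [Metric.mem_ball] at hw
      have h5 : Metric.infDist p0 (closure U) ≤ Metric.infDist w (closure U) + dist p0 w :=
        Metric.infDist_le_infDist_add_dist
      have h6 : Metric.infDist w (closure U) ≤ Metric.infDist
        (Q1.pt (S.δ (n (φ (ψ j)))) (S.a (n (φ (ψ j)))) u) (closure U) +
        dist w (Q1.pt (S.δ (n (φ (ψ j)))) (S.a (n (φ (ψ j)))) u) :=
        Metric.infDist_le_infDist_add_dist
      rw [dist_comm] at h5
      have h7 : S.δ (n (φ (ψ j))) < ρ / 16 := h2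
      linarith
    have hpb : p (ψ j) ∈ Metric.ball p0 (ρ / 2) := h3
    have h8 := surrZ_of_far (S.pos _) (hg2.mem j) (comp_mem_Loops (hv1 (ψ j))) (hp (ψ j))
      (hfar _ hpb)
    exact surrZ_conn (S.pos _) (hg2.mem j) (comp_mem_Loops (hv1 (ψ j)))
      (convex_ball p0 _).isPreconnected hfar hpb hw h8
  -- `p0` is off the carpet
  have hoffG : p0 ∉ (G k : Set ℂ) := by
    intro hp0G
    obtain ⟨j, h1, h2, h3⟩ := (hball.and ((hg2.infDist_le (show 0 < ρ / 16 by positivity) k).and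
      (hg2.delta_lt (show 0 < ρ / 16 by positivity)))).exists
    have h4 := (abs_le.1 (h2 p0)).1
    rw [Metric.infDist_zero_of_mem hp0G] at h4
    have h6 : Metric.infDist p0 (P155.gasket (S.δ (n (φ (ψ j)))) (S.a (n (φ (ψ j))))
        (S.T (n (φ (ψ j)))) k (ω (φ (ψ j)))) < ρ / 8 := by
      have : Metric.infDist p0 (P155.gasket (S.δ (n (φ (ψ j)))) (S.a (n (φ (ψ j))))
        (S.T (n (φ (ψ j)))) k (ω (φ (ψ j)))) ≤ ρ / 16 := by
        have h4' : -(ρ / 16) ≤ 0 - Metric.infDist p0 (P155.gasket (S.δ (n (φ (ψ j))))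
          (S.a (n (φ (ψ j)))) (S.T (n (φ (ψ j)))) k (ω (φ (ψ j)))) := h4
        linarith
      linarith
    obtain ⟨w, hw, hwd⟩ := (Metric.infDist_lt_iff
      (KConn.gasket_nonempty (S.pos _) _ _ _ (hg2.mem j))).1 h6
    refine hw.2 ((KConn.mem_interior_region_iff (S.pos _)).2 fun g hwg' => ?_)
    have hc : K.cell (S.δ (n (φ (ψ j)))) (S.a (n (φ (ψ j)))) (K.pos (S.δ (n (φ (ψ j))))
      (S.a (n (φ (ψ j)))) g) = g := K.cell_pos (S.pos _) _ _
    have hpos : K.pos (S.δ (n (φ (ψ j)))) (S.a (n (φ (ψ j)))) g ∈ sqr (S.δ (n (φ (ψ j))))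
        (S.a (n (φ (ψ j)))) g := by
      have := mem_sqr_cell (a := S.a (n (φ (ψ j)))) (S.pos (n (φ (ψ j))))
        (K.pos (S.δ (n (φ (ψ j)))) (S.a (n (φ (ψ j)))) g)
      rwa [hc] at this
    have hd := dist_le_of_mem_sqr (S.pos _) hpos hwg'
    have hpb : K.pos (S.δ (n (φ (ψ j)))) (S.a (n (φ (ψ j)))) g ∈ Metric.ball p0 (ρ / 2) := by
      rw [Metric.mem_ball]
      have h9 := dist_triangle (K.pos (S.δ (n (φ (ψ j)))) (S.a (n (φ (ψ j)))) g) w p0
      rw [dist_comm w p0] at h9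
      have h7 : S.δ (n (φ (ψ j))) < ρ / 16 := h3
      linarith
    have hsg := h1 _ hpb
    unfold surrZ at hsg
    rw [hc] at hsg
    rw [KConn.Ok_eq_iUnion hk (hg2.mem j), Set.mem_iUnion₂]
    exact ⟨_, ⟨comp_mem_Loops (hv1 (ψ j)), hv2 (ψ j)⟩, hsg⟩
  -- `p0` is in `Ω`
  have hp0cl : p0 ∈ closure Ω := by
    rw [Metric.mem_closure_iff_infDist_zero ⟨z, hz.1⟩]
    refine le_antisymm (le_of_forall_pos_le_add fun ε hε => ?_) Metric.infDist_nonneg
    rw [zero_add]
    refine le_of_tendsto ((Metric.continuous_infDist_pt Ω).continuousAt.tendsto.comp hlim) ?_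
    filter_upwards [region_near hg2 hε] with j hj
    exact (Metric.mem_thickening_iff_infDist_lt ⟨z, hz.1⟩ |>.1
      (hj _ (comp_mem_Loops (hv1 (ψ j))) (hp (ψ j)))).le
  have hp0Ω : p0 ∈ Ω := by
    by_contra h
    refine hoffG (hg.frontier_sub k ?_)
    rw [hg.opn.frontier_eq]
    exact ⟨hp0cl, h⟩
  have hp0O : p0 ∈ Ω \ (G k : Set ℂ) := ⟨hp0Ω, hoffG⟩
  have hneq : U ≠ connectedComponentIn (Ω \ (G k : Set ℂ)) p0 := by
    intro he
    have h1 : p0 ∈ U := by
      rw [he]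
      exact mem_connectedComponentIn hp0O
    have h2 := Metric.infDist_zero_of_mem (subset_closure h1)
    linarith
  obtain ⟨j, h1, h2⟩ := ((hg2.same k hk z p0 hz hp0O hneq).and hball).exists
  exact h1 ⟨_, comp_mem_Loops (hv1 (ψ j)), hv2 (ψ j), hv3 (ψ j),
    h2 p0 (Metric.mem_ball_self (by positivity))⟩

/-- **The polygons of the loops around a hole cover the hole.** -/
theorem hole_sub_region (hg : Good Ω S n ω G) {k : ℕ} (hk : 1 ≤ k) {z : ℂ}
    (hz : z ∈ Ω \ (G k : Set ℂ)) {ρ : ℝ} (hρ : 0 < ρ) :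
    ∀ᶠ j in atTop, ∀ L ∈ Loops (ω j), level (ω j) L = k →
      surrZ (S.δ (n j)) (S.a (n j)) (ω j) L z →
      closure (connectedComponentIn (Ω \ (G k : Set ℂ)) z) ⊆
        Metric.thickening ρ (region (S.δ (n j)) (S.a (n j)) (P155.L.intr (ω j) L)) := by
  set U := connectedComponentIn (Ω \ (G k : Set ℂ)) z with hU
  have hUb : Bornology.IsBounded U :=
    hg.bdd.subset ((connectedComponentIn_subset _ _).trans fun w hw => hw.1)
  have hc : IsCompact (closure U) := hUb.isCompact_closure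
  -- centers in `U`
  have hcov : closure U ⊆ ⋃ y : U, Metric.ball (y : ℂ) ρ := by
    intro x hx
    obtain ⟨y, hy, hd⟩ := Metric.mem_closure_iff.1 hx ρ hρ
    rw [Set.mem_iUnion]
    exact ⟨⟨y, hy⟩, hd⟩
  obtain ⟨F, hF⟩ := hc.elim_finite_subcover (fun y : U => Metric.ball (y : ℂ) ρ)
    (fun _ => Metric.isOpen_ball) hcov
  have h1 : ∀ᶠ j in atTop, ∀ y ∈ F, ∀ L ∈ Loops (ω j), level (ω j) L = k →
      surrZ (S.δ (n j)) (S.a (n j)) (ω j) L z → surrZ (S.δ (n j)) (S.a (n j)) (ω j) L (y : ℂ) :=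
    (eventually_all_finset _).2 fun y _ => scc Ω S n ω G hg k hk z hz y y.2
  filter_upwards [h1] with j hj L hL hl hs w hw
  have hw' := hF hw
  rw [Set.mem_iUnion₂] at hw'
  obtain ⟨y, hy, hwy⟩ := hw'
  rw [Metric.mem_thickening_iff]
  exact ⟨y, mem_region_of_surrZ (S.pos _) (hj y hy L hL hl hs), hwy⟩

/-! ### the two inclusions -/

/-- the closed set is generic: the boundaries of the touched holes meet its interior -/
def Gen (Ω G1 A : Set ℂ) : Prop :=
  ∀ U, IsHole Ω G1 U → (closure U ∩ A).Nonempty → (frontier U ∩ interior A).Nonempty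

theorem HKK_near (hg : Good Ω S n ω G) (hH : HoleLoops Ω G Γ) {A : Set ℂ}
    (hgen : Gen Ω (G 1) A) {ε : ℝ} (hε : 0 < ε) : ∀ᶠ j in atTop,
    HKK Ω (G 1) A ⊆ Metric.thickening ε (kkd (S.δ (n j)) (S.a (n j)) A (ω j)) := by
  -- the large holes
  have hfin : {U : Set ℂ | (IsHole Ω (G 1) U ∧ (closure U ∩ A).Nonempty) ∧
      ε / 2 < Metric.diam U}.Finite := by
    refine ((hH.fin (ε / 2) (by positivity)).image Prod.snd).subset ?_
    rintro U ⟨⟨h1, -⟩, h2⟩
    exact ⟨(1, U), ⟨le_rfl, h1, h2⟩, rfl⟩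
  have key : ∀ U ∈ {U : Set ℂ | (IsHole Ω (G 1) U ∧ (closure U ∩ A).Nonempty) ∧
      ε / 2 < Metric.diam U}, ∀ᶠ j in atTop, closure U ⊆
        Metric.thickening ε (kkd (S.δ (n j)) (S.a (n j)) A (ω j)) := by
    rintro U ⟨⟨hU, hUA⟩, -⟩
    obtain ⟨w, hwf, hwA⟩ := hgen U hU hUA
    obtain ⟨z, hz, rfl⟩ := hU
    obtain ⟨r, hr, hball⟩ := Metric.isOpen_iff.1 isOpen_interior w hwA
    filter_upwards [exi Ω S n ω G hg 1 le_rfl z hz, hg.near_vert le_rfl hz hwf hr,
      hole_sub_region hg le_rfl hz hε] with j h1 h2 h3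
    obtain ⟨v, hv, hl, hs⟩ := h1
    have hL := comp_mem_Loops hv
    obtain ⟨u, hu, hud⟩ := h2 _ hL hl hs
    refine (h3 _ hL hl hs).trans (Metric.thickening_subset_of_subset _ ?_)
    intro p hp
    right
    unfold region at hp ⊢
    rw [Set.mem_iUnion₂] at hp ⊢
    obtain ⟨f, hf, hpf⟩ := hp
    have huA : Q1.pt (S.δ (n j)) (S.a (n j)) u ∈ A := interior_subset (hball hud)
    exact ⟨f, ⟨_, ⟨hL, u, huA, hu⟩, hf⟩, hpf⟩
  filter_upwards [(Set.Finite.eventually_all hfin).2 key] with j hj p hp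
  rcases hp with hp | hp
  · exact Metric.self_subset_thickening hε _ (Or.inl hp)
  · rw [Set.mem_iUnion₂] at hp
    obtain ⟨U, ⟨hU, hUA⟩, hpU⟩ := hp
    by_cases hd : ε / 2 < Metric.diam U
    · exact hj U ⟨⟨hU, hUA⟩, hd⟩ hpU
    · obtain ⟨q, hq, hqA⟩ := hUA
      have hb : Bornology.IsBounded U := by
        obtain ⟨z, _, rfl⟩ := hU
        exact hg.bdd.subset ((connectedComponentIn_subset _ _).trans fun w hw => hw.1)
      have h1 := Metric.dist_le_diam_of_mem hb.closure hpU hq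
      rw [Metric.diam_closure] at h1
      rw [Metric.mem_thickening_iff]
      exact ⟨q, Or.inl hqA, by linarith⟩

theorem kkd_near (hp : EX.Pre Ω S n ω G) (hH : HoleLoops Ω G Γ) {A : Set ℂ} (hAc : IsClosed A)
    (hA : IsPreconnected A) (hΩA : Ωᶜ ⊆ A) {ε : ℝ} (hε : 0 < ε) : ∀ᶠ j in atTop,
    kkd (S.δ (n j)) (S.a (n j)) A (ω j) ⊆ Metric.thickening ε (HKK Ω (G 1) A) := by
  have hg := hp.good
  -- a point of `A` off the closure of `Ω`
  obtain ⟨w0, hw0⟩ : ∃ w0, w0 ∉ closure Ω := by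
    by_contra hcon
    push Not at hcon
    have : Bornology.IsBounded (Set.univ : Set ℂ) := hg.bdd.closure.subset fun x _ => hcon x
    exact NormedSpace.unbounded_univ ℂ ℂ this
  have hw0A : w0 ∈ A := hΩA fun h => hw0 (subset_closure h)
  have hneΩ : Ω.Nonempty := by
    by_contra h
    rw [Set.not_nonempty_iff_eq_empty] at h
    have := (G 0).nonempty
    rw [hg.zero, h, frontier_empty] at this
    exact Set.not_nonempty_empty this
  set r0 := Metric.infDist w0 Ω with hr0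
  have hr0p : 0 < r0 := by
    rw [hr0, ← Metric.infDist_closure]
    exact (isClosed_closure.notMem_iff_infDist_pos hneΩ.closure).1 hw0
  have hoff : ∀ᶠ j in atTop, ∀ f, w0 ∈ sqr (S.δ (n j)) (S.a (n j)) f → ∀ L ∈ Loops (ω j),
      ¬ surr (ω j) L f := by
    filter_upwards [region_near hg hr0p] with j hj f hf L hL hs
    have h1 : w0 ∈ region (S.δ (n j)) (S.a (n j)) (P155.L.intr (ω j) L) := by
      unfold region
      rw [Set.mem_iUnion₂]
      exact ⟨f, hs, hf⟩
    have h2 := (Metric.mem_thickening_iff_infDist_lt hneΩ).1 (hj L hL h1)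
    exact lt_irrefl _ h2
  by_contra hcon
  have hcon2 : ∃ᶠ j in atTop, ¬ kkd (S.δ (n j)) (S.a (n j)) A (ω j) ⊆
      Metric.thickening ε (HKK Ω (G 1) A) := not_eventually.1 hcon
  -- a loop of level one coming close to `A`, with a far away point in its polygon
  have hfr : ∃ᶠ j in atTop, ∃ v p, (ω j).1 v ≠ (ω j).2 v ∧ level (ω j) (comp (ω j) v) = 1 ∧
      Q1.pt (S.δ (n j)) (S.a (n j)) v ∈ Metric.cthickening (2 * S.δ (n j)) A ∧
      p ∈ region (S.δ (n j)) (S.a (n j)) (P155.L.intr (ω j) (comp (ω j) v)) ∧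
      p ∉ Metric.thickening ε (HKK Ω (G 1) A) := by
    refine (hcon2.and_eventually hoff).mono ?_
    rintro j ⟨h1, h2⟩
    rw [Set.not_subset] at h1
    obtain ⟨p, hp1, hp2⟩ := h1
    have h3 := kkd_sub (S.pos _) (hg.mem j) hA hw0A h2 hp1
    rcases h3 with h3 | h3
    · exact absurd (Metric.self_subset_thickening hε (HKK Ω (G 1) A) (Or.inl h3)) hp2
    · rw [Set.mem_iUnion₂] at h3
      obtain ⟨L, ⟨hL, hl, v, hv, hvA⟩, hpL⟩ := h3
      obtain ⟨v0, hv0, rfl⟩ := hL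
      have e := P155.L.comp_eq_of_mem (hg.mem j) hv
      refine ⟨v, p, P155.L.ne_of_mem_comp (hg.mem j) hv0 hv, ?_, hvA, ?_, hp2⟩
      · rw [e]; exact hl
      · rw [e]; exact hpL
  obtain ⟨φ, hφ, h1⟩ := extraction_of_frequently_atTop hfr
  choose v p hv hl hvA hpr hpn using h1
  have hg1 := hg.sub hφ.tendsto_atTop
  -- the distance of `p` to the vertex
  have hpd : ∀ j, ε ≤ Metric.infDist (p j) A := by
    intro j
    by_contra h
    push Not at h
    obtain ⟨q, hq, hd⟩ := (Metric.infDist_lt_iff ⟨w0, hw0A⟩).1 h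
    exact hpn j (Metric.mem_thickening_iff.2 ⟨q, Or.inl hq, hd⟩)
  have hpair : ∀ᶠ j in atTop, ∃ x ∈ comp (ω (φ j)) (v j), ∃ y ∈ comp (ω (φ j)) (v j),
      ε / 8 ≤ dist (Q1.pt (S.δ (n (φ j))) (S.a (n (φ j))) x)
        (Q1.pt (S.δ (n (φ j))) (S.a (n (φ j))) y) := by
    filter_upwards [hg1.delta_lt (show 0 < ε / 64 by positivity)] with j h2
    have h2' : S.δ (n (φ j)) < ε / 64 := h2
    have h3 : Metric.infDist (Q1.pt (S.δ (n (φ j))) (S.a (n (φ j))) (v j)) A ≤
        2 * S.δ (n (φ j)) := by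
      have hvj := hvA j
      rw [Metric.mem_cthickening_iff] at hvj
      exact ENNReal.toReal_le_of_le_ofReal (by linarith [S.pos (n (φ j))]) hvj
    have h4 : Metric.infDist (p j) A ≤
        Metric.infDist (Q1.pt (S.δ (n (φ j))) (S.a (n (φ j))) (v j)) A +
        dist (p j) (Q1.pt (S.δ (n (φ j))) (S.a (n (φ j))) (v j)) :=
      Metric.infDist_le_infDist_add_dist
    have h5 : ε / 2 ≤ dist (p j) (Q1.pt (S.δ (n (φ j))) (S.a (n (φ j))) (v j)) := by
      linarith [hpd j]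
    obtain ⟨x, hx, y, hy, hd⟩ := exists_pair (S.pos _) (hg1.mem j) (comp_mem_Loops (hv j))
      (hpr j) (v := v j) (P155.L.same_refl _ _) h5 (by
        show 16 * S.δ (n (φ j)) < ε / 2
        linarith)
    refine ⟨x, hx, y, hy, ?_⟩
    have : ε / 2 / 4 = ε / 8 := by ring
    rw [this] at hd
    exact hd
  obtain ⟨η, hη, hbdt⟩ := hp.bdt (ε / 8) (by positivity)
  have hall : ∀ᶠ j in atTop, ε / 8 ≤ (lcurve (S.δ (n (φ j))) (S.a (n (φ j))) (ω (φ j)) (v j)).diam ∧
      ∃ u ∈ comp (ω (φ j)) (v j),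
        η < Metric.infDist (Q1.pt (S.δ (n (φ j))) (S.a (n (φ j))) u) (frontier Ω) := by
    filter_upwards [hpair, hφ.tendsto_atTop.eventually hbdt] with j h2 h3
    obtain ⟨x, hx, y, hy, hd⟩ := h2
    exact ⟨hd.trans (diam_ge (hg1.mem j) (hv j) hx hy), v j, P155.L.same_refl _ _,
      h3 (v j) (hv j) ⟨x, hx, y, hy, hd⟩⟩
  obtain ⟨φ2, hφ2, h2⟩ := extraction_of_eventually_atTop hall
  have hg2 := hg1.sub hφ2.tendsto_atTop
  obtain ⟨k, hk, z, hz, hfrz⟩ := m2 Ω S _ _ G Γ hg2 hH (ε / 8) η (by positivity) hη (v ∘ φ2)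
    (fun j => hv (φ2 j)) (fun j => (h2 j).1) (fun j => (h2 j).2)
  obtain ⟨φ3, hφ3, h3⟩ := extraction_of_frequently_atTop hfrz
  have hg3 := hg2.sub hφ3.tendsto_atTop
  have hk1 : k = 1 := by
    have h4 := (h3 0).1
    have h5 := hl (φ2 (φ3 0))
    exact h4.symm.trans h5
  subst hk1
  set U := connectedComponentIn (Ω \ (G 1 : Set ℂ)) z with hU
  have hhole : IsHole Ω (G 1) U := ⟨z, hz, rfl⟩
  obtain ⟨J, hJ⟩ := hH.jordan 1 _ le_rfl hhole
  have hin := hH.inside 1 _ le_rfl hhole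
  have hUb : Bornology.IsBounded U :=
    hg.bdd.subset ((connectedComponentIn_subset _ _).trans fun w hw => hw.1)
  -- the closure of `U` meets `A`
  have hmeet : (closure U ∩ A).Nonempty := by
    by_contra hno
    rw [Set.not_nonempty_iff_eq_empty, ← Set.disjoint_iff_inter_eq_empty] at hno
    obtain ⟨τ, hτ, hdis⟩ := hno.exists_thickenings hUb.isCompact_closure hAc
    obtain ⟨j, h4, h5⟩ := ((m1_unif hg3 le_rfl hz hin hJ (show 0 < τ / 2 by positivity)).and
      (hg3.delta_lt (show 0 < τ / 4 by positivity))).exists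
    have h6 := h4 (v (φ2 (φ3 j))) (hv _) (hl _) (h3 j).2
    have hB : Set.range J.c ⊆ closure U := by
      rw [hJ.2]
      exact frontier_subset_closure
    have h7 := vert_near (hg3.mem j) (hv (φ2 (φ3 j))) (P155.L.same_refl _ _)
      (lt_of_le_of_lt h6 (show τ / 2 < τ by linarith)) hB
    have h8 : Metric.infDist (Q1.pt (S.δ (n (φ (φ2 (φ3 j))))) (S.a (n (φ (φ2 (φ3 j)))))
        (v (φ2 (φ3 j)))) A ≤ 2 * S.δ (n (φ (φ2 (φ3 j)))) := by
      have := hvA (φ2 (φ3 j))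
      rw [Metric.mem_cthickening_iff] at this
      exact ENNReal.toReal_le_of_le_ofReal (by linarith [S.pos (n (φ (φ2 (φ3 j))))]) this
    have h5' : S.δ (n (φ (φ2 (φ3 j)))) < τ / 4 := h5
    refine Set.disjoint_left.1 hdis
      ((Metric.mem_thickening_iff_infDist_lt ⟨z, subset_closure (mem_connectedComponentIn hz)⟩).2 h7)
      ((Metric.mem_thickening_iff_infDist_lt ⟨w0, hw0A⟩).2 (lt_of_le_of_lt h8 (by linarith)))
  have hsub : closure U ⊆ HKK Ω (G 1) A := by
    intro q hq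
    right
    rw [Set.mem_iUnion₂]
    exact ⟨U, ⟨hhole, hmeet⟩, hq⟩
  obtain ⟨j, h4⟩ := (region_sub hg3 le_rfl hz hin hJ hε).exists
  exact hpn (φ2 (φ3 j)) (Metric.thickening_subset_of_subset _ hsub
    (h4 (v (φ2 (φ3 j))) (hv _) (hl _) (h3 j).2 (hpr (φ2 (φ3 j)))))

end Vale.Agent.P155.SW733
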