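import Vale.Agent.P155.SW801.Defs
import Vale.Agent.P155.Ex795.Meas

/-!
# P155, (SW), block (6a), (K1): the second moment of the first level given the carpet
-/

namespace Vale.Agent.P155.SW733

open MeasureTheory Filter Topology TopologicalSpace ProbabilityTheory Vale.Agent.P155
  Vale.Agent.P155.Q1 Vale.Agent.P155.Uq Set

/-- the hole of index `i` -/
def hol (Ω : Set ℂ) (A : NonemptyCompacts ℂ) (i : ℕ) : Set ℂ :=
  {z | z ∈ Ω ∧ z ∉ A ∧ T211Q.idb z A = i}

/-- the sum of the squares of the integrals over the holes -/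
noncomputable def SS (Ω : Set ℂ) (χ : ℂ → ℝ) (A : NonemptyCompacts ℂ) : ℝ :=
  ∑' i, (∫ z in hol Ω A i, χ z) ^ 2

theorem measurableSet_hol_joint {Ω : Set ℂ} (hΩ : IsOpen Ω) (i : ℕ) :
    MeasurableSet {p : NonemptyCompacts ℂ × ℂ | p.2 ∈ hol Ω p.1 i} := by
  have h0 : @Measurable _ _ _ (borel (NonemptyCompacts ℂ))
      (fun A : NonemptyCompacts ℂ => A) := measurable_id
  have h1 := (Ex795.measurable_idb_joint h0).comp (measurable_swap (α := NonemptyCompacts ℂ) (β := ℂ))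
  have h2 := (Ex795.measurable_infDist_joint h0).comp
    (measurable_swap (α := NonemptyCompacts ℂ) (β := ℂ))
  have e : {p : NonemptyCompacts ℂ × ℂ | p.2 ∈ hol Ω p.1 i} =
      {p | p.2 ∈ Ω} ∩ ({p | 0 < Metric.infDist p.2 (p.1 : Set ℂ)} ∩
        {p | T211Q.idb p.2 p.1 = i}) := by
    ext p
    simp only [hol, mem_ofPred_eq, mem_inter_iff]
    refine and_congr_right fun _ => and_congr_left fun _ => ?_
    exact p.1.isCompact.isClosed.notMem_iff_infDist_pos p.1.nonempty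
  rw [e]
  refine (measurable_snd hΩ.measurableSet).inter (MeasurableSet.inter ?_ ?_)
  · exact measurableSet_lt measurable_const h2
  · exact h1 (measurableSet_singleton i)

theorem measurableSet_hol {Ω : Set ℂ} (hΩ : IsOpen Ω) (A : NonemptyCompacts ℂ) (i : ℕ) :
    MeasurableSet (hol Ω A i) :=
  measurable_prodMk_left (x := A) (measurableSet_hol_joint hΩ i)

theorem hol_disj (Ω : Set ℂ) (A : NonemptyCompacts ℂ) :
    Pairwise (Function.onFun Disjoint (hol Ω A)) := by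
  intro i j hij
  rw [Function.onFun, Set.disjoint_left]
  rintro z ⟨-, -, h1⟩ ⟨-, -, h2⟩
  exact hij (h1.symm.trans h2)

theorem iUnion_hol (Ω : Set ℂ) (A : NonemptyCompacts ℂ) : ⋃ i, hol Ω A i = Ω \ (A : Set ℂ) := by
  ext z
  simp only [hol, mem_iUnion, mem_ofPred_eq, Set.mem_sdiff]
  constructor
  · rintro ⟨i, h1, h2, -⟩
    exact ⟨h1, h2⟩
  · rintro ⟨h1, h2⟩
    exact ⟨_, h1, h2, rfl⟩

/-! ## (d) -/

theorem hol_eq {Ω : Set ℂ} (hΩ : IsOpen Ω) {A : NonemptyCompacts ℂ} (hfr : frontier Ω ⊆ (A : Set ℂ))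
    {i : ℕ} {z : ℂ} (hz : z ∈ hol Ω A i) :
    hol Ω A i = connectedComponentIn (Ω \ (A : Set ℂ)) z := by
  obtain ⟨h1, h2, h3⟩ := hz
  ext w
  constructor
  · rintro ⟨w1, w2, w3⟩
    rw [T211Q.hole_iff hΩ A.isCompact.isClosed A.nonempty hfr h1]
    exact T211Q.bott_pos_of_idb hΩ hfr h1 w1 h2 w2 (h3.trans w3.symm)
  · intro hw
    have hw' := connectedComponentIn_subset _ _ hw
    refine ⟨hw'.1, hw'.2, ?_⟩
    rw [T211Q.idb_eq hΩ hfr hw'.1, ← connectedComponentIn_eq hw, ← T211Q.idb_eq hΩ hfr h1, h3]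

theorem hol_isHole {Ω : Set ℂ} (hΩ : IsOpen Ω) {A : NonemptyCompacts ℂ}
    (hfr : frontier Ω ⊆ (A : Set ℂ)) (i : ℕ) : hol Ω A i = ∅ ∨ IsHole Ω A (hol Ω A i) := by
  rcases (hol Ω A i).eq_empty_or_nonempty with h | ⟨z, hz⟩
  · exact Or.inl h
  · exact Or.inr ⟨z, ⟨hz.1, hz.2.1⟩, hol_eq hΩ hfr hz⟩

theorem isOpen_hol {Ω : Set ℂ} (hΩ : IsOpen Ω) {A : NonemptyCompacts ℂ}
    (hfr : frontier Ω ⊆ (A : Set ℂ)) (i : ℕ) : IsOpen (hol Ω A i) := by
  rcases hol_isHole hΩ hfr i with h | ⟨z, hz, h⟩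
  · rw [h]
    exact isOpen_empty
  · rw [h]
    exact (hΩ.sdiff A.isCompact.isClosed).connectedComponentIn

theorem exists_hol {Ω : Set ℂ} (hΩ : IsOpen Ω) {A : NonemptyCompacts ℂ}
    (hfr : frontier Ω ⊆ (A : Set ℂ)) {U : Set ℂ} (hU : IsHole Ω A U) : ∃ i, U = hol Ω A i := by
  obtain ⟨z, hz, rfl⟩ := hU
  exact ⟨_, (hol_eq hΩ hfr (z := z) ⟨hz.1, hz.2, rfl⟩).symm⟩

/-! ## (b) -/

section b

variable {Ω : Set ℂ} {χ : ℂ → ℝ}

theorem hasSum_hol (hΩ : IsOpen Ω) {f : ℂ → ℝ} (hf : Integrable f) (A : NonemptyCompacts ℂ) :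
    HasSum (fun i => ∫ z in hol Ω A i, f z) (∫ z in Ω \ (A : Set ℂ), f z) := by
  rw [← iUnion_hol Ω A]
  exact hasSum_integral_iUnion (fun i => measurableSet_hol hΩ A i) (hol_disj Ω A)
    hf.integrableOn

/-- the sum of the absolute values -/
theorem summable_abs (hΩ : IsOpen Ω) {f : ℂ → ℝ} (hf : Integrable f) (A : NonemptyCompacts ℂ) :
    Summable (fun i => |∫ z in hol Ω A i, f z|) ∧
      ∑' i, |∫ z in hol Ω A i, f z| ≤ ∫ z, |f z| := by
  have h1 := hasSum_hol hΩ hf.abs A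
  have h2 : ∀ i, |∫ z in hol Ω A i, f z| ≤ ∫ z in hol Ω A i, |f z| := fun i =>
    abs_integral_le_integral_abs
  have h3 : Summable (fun i => |∫ z in hol Ω A i, f z|) :=
    Summable.of_nonneg_of_le (fun i => abs_nonneg _) h2 h1.summable
  refine ⟨h3, ?_⟩
  calc ∑' i, |∫ z in hol Ω A i, f z| ≤ ∑' i, ∫ z in hol Ω A i, |f z| :=
        h3.tsum_le_tsum h2 h1.summable
    _ = ∫ z in Ω \ (A : Set ℂ), |f z| := h1.tsum_eq
    _ ≤ ∫ z, |f z| := setIntegral_le_integral hf.abs (Eventually.of_forall fun _ => abs_nonneg _)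

theorem abs_hol_le (hΩ : IsOpen Ω) {f : ℂ → ℝ} (hf : Integrable f) (A : NonemptyCompacts ℂ)
    (i : ℕ) : |∫ z in hol Ω A i, f z| ≤ ∫ z, |f z| :=
  ((summable_abs hΩ hf A).1.le_tsum i fun _ _ => abs_nonneg _).trans (summable_abs hΩ hf A).2

theorem summable_sq (hΩ : IsOpen Ω) {f : ℂ → ℝ} (hf : Integrable f) (A : NonemptyCompacts ℂ) :
    Summable (fun i => (∫ z in hol Ω A i, f z) ^ 2) ∧
      ∑' i, (∫ z in hol Ω A i, f z) ^ 2 ≤ (∫ z, |f z|) ^ 2 := by
  obtain ⟨h1, h2⟩ := summable_abs hΩ hf A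
  have h3 : ∀ i, (∫ z in hol Ω A i, f z) ^ 2 ≤ (∫ z, |f z|) * |∫ z in hol Ω A i, f z| := by
    intro i
    rw [← sq_abs, sq]
    exact mul_le_mul_of_nonneg_right (abs_hol_le hΩ hf A i) (abs_nonneg _)
  have h4 := Summable.of_nonneg_of_le (fun i => sq_nonneg _) h3 (h1.mul_left _)
  refine ⟨h4, ?_⟩
  calc ∑' i, (∫ z in hol Ω A i, f z) ^ 2 ≤ ∑' i, (∫ z, |f z|) * |∫ z in hol Ω A i, f z| :=
        h4.tsum_le_tsum h3 (h1.mul_left _)
    _ = (∫ z, |f z|) * ∑' i, |∫ z in hol Ω A i, f z| := tsum_mul_left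
    _ ≤ (∫ z, |f z|) * ∫ z, |f z| := by
        refine mul_le_mul_of_nonneg_left h2 (integral_nonneg fun _ => abs_nonneg _)
    _ = (∫ z, |f z|) ^ 2 := (sq _).symm

theorem SS_nonneg (Ω : Set ℂ) (χ : ℂ → ℝ) (A : NonemptyCompacts ℂ) : 0 ≤ SS Ω χ A :=
  tsum_nonneg fun _ => sq_nonneg _

theorem SS_summable (hΩ : IsOpen Ω) (hχ : IsTest Ω χ) (A : NonemptyCompacts ℂ) :
    Summable (fun i => (∫ z in hol Ω A i, χ z) ^ 2) :=
  (summable_sq hΩ (K1.test_integrable hχ) A).1

theorem SS_le (hΩ : IsOpen Ω) (hχ : IsTest Ω χ) (A : NonemptyCompacts ℂ) :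
    SS Ω χ A ≤ (∫ z, |χ z|) ^ 2 :=
  (summable_sq hΩ (K1.test_integrable hχ) A).2

end b

/-! ## (a) -/

section a

variable {Ω : Set ℂ} {χ : ℂ → ℝ}

theorem meas_hol (hΩ : IsOpen Ω) (hχ : Measurable χ) (i : ℕ) :
    Measurable (fun A : NonemptyCompacts ℂ => ∫ z in hol Ω A i, χ z) := by
  classical
  have e : (fun A : NonemptyCompacts ℂ => ∫ z in hol Ω A i, χ z) = fun A =>
      ∫ z, {p : NonemptyCompacts ℂ × ℂ | p.2 ∈ hol Ω p.1 i}.indicator (fun p => χ p.2) (A, z) := by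
    funext A
    rw [← integral_indicator (measurableSet_hol hΩ A i)]
    rfl
  rw [e]
  have h1 : StronglyMeasurable ({p : NonemptyCompacts ℂ × ℂ | p.2 ∈ hol Ω p.1 i}.indicator
      (fun p => χ p.2)) :=
    ((hχ.comp measurable_snd).indicator (measurableSet_hol_joint hΩ i)).stronglyMeasurable
  exact h1.integral_prod_right'.measurable

theorem meas_SS (hΩ : IsOpen Ω) (hχ : IsTest Ω χ) : Measurable (SS Ω χ) := by
  have hχm : Measurable χ := hχ.1.continuous.measurable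
  refine measurable_of_tendsto_metrizable (f := fun N A => ∑ i ∈ Finset.range N,
    (∫ z in hol Ω A i, χ z) ^ 2) (fun N => ?_) ?_
  · exact Finset.measurable_sum _ fun i _ => (meas_hol hΩ hχm i).pow_const 2
  · rw [tendsto_pi_nhds]
    intro A
    exact (SS_summable hΩ hχ A).hasSum.tendsto_sum_nat

end a

/-! ## (c) -/

section c

variable {Ω : Set ℂ} {χ : ℂ → ℝ} {Θ : Type} [MeasurableSpace Θ] {P : Measure Θ}
  {G : ℕ → Θ → NonemptyCompacts ℂ} {ξ : ℕ → ℕ → Θ → ℝ}

omit [MeasurableSpace Θ] in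
theorem height_one (x : Θ) (z : ℂ) [Decidable (z ∈ Ω \ (G 1 x : Set ℂ))] :
    Q1.height Ω (fun j => G j x) (fun j i => ξ j i x) 1 z = if z ∈ Ω \ (G 1 x : Set ℂ) then
      ξ 1 (Q1.idx (connectedComponentIn (Ω \ (G 1 x : Set ℂ)) z)) x else 0 := by
  unfold Q1.height
  rw [Finset.Icc_self, Finset.sum_singleton]
  split_ifs <;> rfl

omit [MeasurableSpace Θ] in
/-- the height of the first level is the sum over the holes -/
theorem hgt_eq (hΩ : IsOpen Ω) (hpm : ∀ k i x, ξ k i x = 1 ∨ ξ k i x = -1) (hχ : IsTest Ω χ)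
    {x : Θ} (hfr : frontier Ω ⊆ (G 1 x : Set ℂ)) :
    HasSum (fun i => ξ 1 i x * ∫ z in hol Ω (G 1 x) i, χ z) (SWR.hgt Ω G ξ 1 x χ) := by
  classical
  set f : ℂ → ℝ := fun z => Q1.height Ω (fun j => G j x) (fun j i => ξ j i x) 1 z * χ z with hf
  have hfi : Integrable f := (K1.test_integrable hχ).bdd_mul
    (T211Q.measurable_height hΩ (fun j => G j x) (fun j i => ξ j i x) 1).aestronglyMeasurable
      (Eventually.of_forall fun w => by
        rw [Real.norm_eq_abs]; exact T211Q.abs_height_le (fun j => G j x) (fun k i => hpm k i x) 1 w)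
  have h1 := hasSum_hol hΩ hfi (G 1 x)
  have e1 : ∫ z in Ω \ (G 1 x : Set ℂ), f z = SWR.hgt Ω G ξ 1 x χ := by
    rw [setIntegral_eq_integral_of_forall_compl_eq_zero]
    · rfl
    · intro z hz
      rw [hf]
      simp only
      rw [height_one, if_neg hz, zero_mul]
  have e2 : (fun i => ∫ z in hol Ω (G 1 x) i, f z) =
      fun i => ξ 1 i x * ∫ z in hol Ω (G 1 x) i, χ z := by
    funext i
    rw [← integral_const_mul]
    refine setIntegral_congr_fun (measurableSet_hol hΩ _ i) fun z hz => ?_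
    rw [hf]
    simp only
    rw [height_one, if_pos (show z ∈ Ω \ (G 1 x : Set ℂ) from ⟨hz.1, hz.2.1⟩),
      ← T211Q.idb_eq hΩ hfr hz.1, hz.2.2]
  rw [e1, e2] at h1
  exact h1

/-- two different signs are uncorrelated given the carpet -/
theorem pair_zero (h : T211Q.FairCarpets P Ω G ξ) {i j : ℕ} (hij : i ≠ j)
    {u : NonemptyCompacts ℂ → ℝ} (hu : Measurable u) :
    ∫ x, u (G 1 x) * (ξ 1 i x * ξ 1 j x) ∂P = 0 := by
  have hP := h.prob
  have hm : Measurable[⨆ i, MeasurableSpace.comap (ξ 1 i) inferInstance]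
      (fun x => ξ 1 i x * ξ 1 j x) := by
    have hx : ∀ i, Measurable[⨆ i, MeasurableSpace.comap (ξ 1 i) inferInstance] (ξ 1 i) :=
      fun i => Measurable.mono (comap_measurable (ξ 1 i))
        (le_iSup (fun i => MeasurableSpace.comap (ξ 1 i) inferInstance) i) le_rfl
    exact (hx i).mul (hx j)
  have hind : IndepFun (fun x => u (G 1 x)) (fun x => ξ 1 i x * ξ 1 j x) P := by
    rw [IndepFun_iff_Indep]
    refine (indep_of_indep_of_le_left (indep_of_indep_of_le_right (h.indep 1) ?_) ?_).symm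
    · have e : MeasurableSpace.comap (fun x => u (G 1 x)) inferInstance =
          MeasurableSpace.comap (G 1) (MeasurableSpace.comap u inferInstance) :=
        (MeasurableSpace.comap_comp (m := inferInstance) (f := u) (g := G 1)).symm
      rw [e]
      exact MeasurableSpace.comap_mono hu.comap_le
    · exact hm.comap_le
  rw [hind.integral_fun_mul_eq_mul_integral (hu.comp (h.mG 1)).aestronglyMeasurable
    ((h.mξ 1 i).mul (h.mξ 1 j)).aestronglyMeasurable, h.cov_zero 1 hij, mul_zero]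

/-- the partial sums of the height -/
theorem part_sum (h : T211Q.FairCarpets P Ω G ξ) (hΩ : IsOpen Ω) (hχ : IsTest Ω χ)
    {β : NonemptyCompacts ℂ → ℝ} (hβ : BM β) (N : ℕ) :
    ∫ x, β (G 1 x) * (∑ i ∈ Finset.range N, ξ 1 i x * ∫ z in hol Ω (G 1 x) i, χ z) ^ 2 ∂P =
      ∫ x, β (G 1 x) * ∑ i ∈ Finset.range N, (∫ z in hol Ω (G 1 x) i, χ z) ^ 2 ∂P := by
  have hP := h.prob
  obtain ⟨hβm, C, hC⟩ := hβ
  have hC0 : 0 ≤ C := (abs_nonneg _).trans (hC (Classical.arbitrary _))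
  have hχi := K1.test_integrable hχ
  set M := ∫ z, |χ z| with hM
  have hM0 : 0 ≤ M := integral_nonneg fun _ => abs_nonneg _
  set c : ℕ → NonemptyCompacts ℂ → ℝ := fun i A => ∫ z in hol Ω A i, χ z with hc
  have hcm : ∀ i, Measurable (c i) := fun i => meas_hol hΩ hχ.1.continuous.measurable i
  have hcb : ∀ i A, |c i A| ≤ M := fun i A => abs_hol_le hΩ hχi A i
  have hint : ∀ i j, Integrable (fun x => (β (G 1 x) * c i (G 1 x) * c j (G 1 x)) *
      (ξ 1 i x * ξ 1 j x)) P := by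
    intro i j
    refine Integrable.of_bound (C := C * M * M) ?_ (Eventually.of_forall fun x => ?_)
    · exact ((((hβm.comp (h.mG 1)).mul ((hcm i).comp (h.mG 1))).mul
        ((hcm j).comp (h.mG 1))).mul ((h.mξ 1 i).mul (h.mξ 1 j))).aestronglyMeasurable
    · have e : |ξ 1 i x * ξ 1 j x| = 1 := by
        rcases h.pm 1 i x with h1 | h1 <;> rcases h.pm 1 j x with h2 | h2 <;> rw [h1, h2] <;> simp
      rw [Real.norm_eq_abs, abs_mul, e, mul_one, abs_mul, abs_mul]
      exact mul_le_mul (mul_le_mul (hC _) (hcb _ _) (abs_nonneg _) hC0) (hcb _ _) (abs_nonneg _)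
        (by positivity)
  have e1 : ∀ x, β (G 1 x) * (∑ i ∈ Finset.range N, ξ 1 i x * c i (G 1 x)) ^ 2 =
      ∑ i ∈ Finset.range N, ∑ j ∈ Finset.range N,
        (β (G 1 x) * c i (G 1 x) * c j (G 1 x)) * (ξ 1 i x * ξ 1 j x) := by
    intro x
    rw [sq, Finset.sum_mul_sum, Finset.mul_sum]
    refine Finset.sum_congr rfl fun i _ => ?_
    rw [Finset.mul_sum]
    exact Finset.sum_congr rfl fun j _ => by ring
  calc ∫ x, β (G 1 x) * (∑ i ∈ Finset.range N, ξ 1 i x * c i (G 1 x)) ^ 2 ∂P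
      = ∫ x, ∑ i ∈ Finset.range N, ∑ j ∈ Finset.range N,
        (β (G 1 x) * c i (G 1 x) * c j (G 1 x)) * (ξ 1 i x * ξ 1 j x) ∂P :=
        integral_congr_ae (Eventually.of_forall e1)
    _ = ∑ i ∈ Finset.range N, ∑ j ∈ Finset.range N,
        ∫ x, (β (G 1 x) * c i (G 1 x) * c j (G 1 x)) * (ξ 1 i x * ξ 1 j x) ∂P := by
        rw [integral_finsetSum _ fun i _ => integrable_finsetSum _ fun j _ => hint i j]
        exact Finset.sum_congr rfl fun i _ => integral_finsetSum _ fun j _ => hint i j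
    _ = ∑ i ∈ Finset.range N, ∫ x, β (G 1 x) * c i (G 1 x) ^ 2 ∂P := by
        refine Finset.sum_congr rfl fun i hi => ?_
        rw [Finset.sum_eq_single i]
        · refine integral_congr_ae (Eventually.of_forall fun x => ?_)
          have e : ξ 1 i x * ξ 1 i x = 1 := by
            rcases h.pm 1 i x with h1 | h1 <;> rw [h1] <;> norm_num
          simp only [e]
          ring
        · intro j _ hj
          exact pair_zero h hj.symm (u := fun A => β A * c i A * c j A)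
            ((hβm.mul (hcm i)).mul (hcm j))
        · intro hi'
          exact absurd hi hi'
    _ = ∫ x, ∑ i ∈ Finset.range N, β (G 1 x) * c i (G 1 x) ^ 2 ∂P := by
        rw [integral_finsetSum]
        intro i _
        refine Integrable.of_bound (C := C * M ^ 2) ?_ (Eventually.of_forall fun x => ?_)
        · exact ((hβm.comp (h.mG 1)).mul (((hcm i).comp (h.mG 1)).pow_const 2)).aestronglyMeasurable
        · rw [Real.norm_eq_abs, abs_mul, abs_pow]
          exact mul_le_mul (hC _) (pow_le_pow_left₀ (abs_nonneg _) (hcb _ _) 2) (by positivity) hC0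
    _ = _ := integral_congr_ae (Eventually.of_forall fun x => by
        simp only
        rw [Finset.mul_sum])

/-- **(K1)(c)** the second moment of the first level given the carpet -/
theorem second (hΩ : IsOpen Ω) (h : T211Q.FairCarpets P Ω G ξ) (hχ : IsTest Ω χ)
    (β : NonemptyCompacts ℂ → ℝ) (hβ : BM β) :
    ∫ x, β (G 1 x) * (SWR.hgt Ω G ξ 1 x χ) ^ 2 ∂P = ∫ x, β (G 1 x) * SS Ω χ (G 1 x) ∂P := by
  have hP := h.prob
  have key := part_sum h hΩ hχ hβ
  obtain ⟨hβm, C, hC⟩ := hβ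
  have hχi := K1.test_integrable hχ
  set M := ∫ z, |χ z| with hM
  have hM0 : 0 ≤ M := integral_nonneg fun _ => abs_nonneg _
  set c : ℕ → NonemptyCompacts ℂ → ℝ := fun i A => ∫ z in hol Ω A i, χ z with hc
  have hcm : ∀ i, Measurable (c i) := fun i => meas_hol hΩ hχ.1.continuous.measurable i
  have l1 : Tendsto (fun N => ∫ x, β (G 1 x) *
      (∑ i ∈ Finset.range N, ξ 1 i x * c i (G 1 x)) ^ 2 ∂P) atTop
      (𝓝 (∫ x, β (G 1 x) * (SWR.hgt Ω G ξ 1 x χ) ^ 2 ∂P)) := by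
    refine tendsto_integral_of_dominated_convergence (fun _ => C * M ^ 2) (fun N => ?_)
      (integrable_const _) (fun N => Eventually.of_forall fun x => ?_) ?_
    · exact ((hβm.comp (h.mG 1)).mul ((Finset.measurable_sum _ fun i _ =>
        (h.mξ 1 i).mul ((hcm i).comp (h.mG 1))).pow_const 2)).aestronglyMeasurable
    · have h1 : |∑ i ∈ Finset.range N, ξ 1 i x * c i (G 1 x)| ≤ M := by
        refine (Finset.abs_sum_le_sum_abs _ _).trans ?_
        have h2 : ∀ i ∈ Finset.range N, |ξ 1 i x * c i (G 1 x)| ≤ |c i (G 1 x)| := by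
          intro i _
          rw [abs_mul]
          rcases h.pm 1 i x with h3 | h3 <;> rw [h3] <;> simp
        refine (Finset.sum_le_sum h2).trans ?_
        obtain ⟨h3, h4⟩ := summable_abs hΩ hχi (G 1 x)
        exact (h3.sum_le_tsum _ fun _ _ => abs_nonneg _).trans h4
      rw [Real.norm_eq_abs, abs_mul, abs_pow]
      exact mul_le_mul (hC _) (pow_le_pow_left₀ (abs_nonneg _) h1 2) (by positivity)
        ((abs_nonneg _).trans (hC (G 1 x)))
    · filter_upwards [h.frontier_sub] with x hx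
      exact ((hgt_eq hΩ h.pm hχ (hx 1)).tendsto_sum_nat.pow 2).const_mul _
  have l2 : Tendsto (fun N => ∫ x, β (G 1 x) *
      ∑ i ∈ Finset.range N, (c i (G 1 x)) ^ 2 ∂P) atTop
      (𝓝 (∫ x, β (G 1 x) * SS Ω χ (G 1 x) ∂P)) := by
    refine tendsto_integral_of_dominated_convergence (fun _ => C * M ^ 2) (fun N => ?_)
      (integrable_const _) (fun N => Eventually.of_forall fun x => ?_) ?_
    · exact ((hβm.comp (h.mG 1)).mul (Finset.measurable_sum _ fun i _ =>
        ((hcm i).comp (h.mG 1)).pow_const 2)).aestronglyMeasurable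
    · have h0 : 0 ≤ ∑ i ∈ Finset.range N, (c i (G 1 x)) ^ 2 :=
        Finset.sum_nonneg fun _ _ => sq_nonneg _
      have h1 : ∑ i ∈ Finset.range N, (c i (G 1 x)) ^ 2 ≤ M ^ 2 :=
        ((SS_summable hΩ hχ (G 1 x)).sum_le_tsum _ fun _ _ => sq_nonneg _).trans
          (SS_le hΩ hχ (G 1 x))
      rw [Real.norm_eq_abs, abs_mul, abs_of_nonneg h0]
      exact mul_le_mul (hC _) h1 h0 ((abs_nonneg _).trans (hC (G 1 x)))
    · exact Eventually.of_forall fun x =>
        (SS_summable hΩ hχ (G 1 x)).hasSum.tendsto_sum_nat.const_mul _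
  refine tendsto_nhds_unique l1 ?_
  refine l2.congr fun N => (key N).symm

end c

end Vale.Agent.P155.SW733
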