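import Vale.Agent.P155.SW733.K1
import Vale.Agent.P155.U.Vk

/-!
# P155, (SW), block (6a), (K1)(e): continuity of the sum of squares in the test function
-/

namespace Vale.Agent.P155.SW733

open MeasureTheory Filter Topology TopologicalSpace Vale.Agent.P155
  Vale.Agent.P155.Q1 Vale.Agent.P155.Uq Set

variable {Ω : Set ℂ}

theorem hol_sub (Ω : Set ℂ) (A : NonemptyCompacts ℂ) (i : ℕ) : hol Ω A i ⊆ Ω := fun _ h => h.1

theorem measure_hol_ne (hb : Bornology.IsBounded Ω) (A : NonemptyCompacts ℂ) (i : ℕ) :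
    (volume.restrict Ω : Measure ℂ) (hol Ω A i) ≠ ⊤ := by
  refine ne_top_of_le_ne_top (hb.measure_lt_top (μ := volume)).ne ?_
  exact (Measure.restrict_apply_le _ _).trans (measure_mono (hol_sub Ω A i))

/-- the indicator of a hole as a field -/
theorem exists_ind (hΩ : IsOpen Ω) (hb : Bornology.IsBounded Ω) (A : NonemptyCompacts ℂ) (i : ℕ) :
    ∃ f : Fld Ω, (∀ χ : ℂ → ℝ, pr f χ = ∫ z in hol Ω A i, χ z) ∧
      ‖f‖ ^ 2 = volume.real (hol Ω A i) := by
  have hm := measurableSet_hol hΩ A i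
  refine ⟨indicatorConstLp 2 hm (measure_hol_ne hb A i) (1 : ℝ), fun χ => ?_, ?_⟩
  · unfold pr
    have e : ∫ z in Ω, (indicatorConstLp 2 hm (measure_hol_ne hb A i) (1 : ℝ)) z * χ z =
        ∫ z in Ω, (hol Ω A i).indicator χ z := by
      refine integral_congr_ae ?_
      filter_upwards [indicatorConstLp_coeFn (p := 2) (hs := hm) (hμs := measure_hol_ne hb A i)
        (c := (1 : ℝ))] with z hz
      rw [hz]
      by_cases h : z ∈ hol Ω A i
      · rw [indicator_of_mem h, indicator_of_mem h, one_mul]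
      · rw [indicator_of_notMem h, indicator_of_notMem h, zero_mul]
    rw [e, setIntegral_indicator hm, inter_eq_self_of_subset_right (hol_sub Ω A i)]
  · rw [norm_indicatorConstLp (by norm_num) (by norm_num), norm_one, one_mul]
    rw [← Real.rpow_natCast, ← Real.rpow_mul measureReal_nonneg]
    norm_num
    rw [measureReal_def, measureReal_def, Measure.restrict_apply hm,
      inter_eq_self_of_subset_left (hol_sub Ω A i)]

theorem summable_vol (hΩ : IsOpen Ω) (hb : Bornology.IsBounded Ω) (A : NonemptyCompacts ℂ) :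
    Summable fun i => volume.real (hol Ω A i) := by
  have h := hasSum_integral_iUnion (μ := (volume : Measure ℂ)) (f := fun _ => (1 : ℝ))
    (fun i => measurableSet_hol hΩ A i) (hol_disj Ω A) (by
      rw [iUnion_hol]
      refine integrableOn_const ?_
      exact ne_top_of_le_ne_top (hb.measure_lt_top (μ := volume)).ne
        (measure_mono sdiff_subset))
  refine h.summable.congr fun i => ?_
  rw [setIntegral_const, smul_eq_mul, mul_one]

/-- weakly convergent test functions are bounded in `L²` -/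
theorem bdd_of_pr {χ : ℕ → ℂ → ℝ} {χ0 : ℂ → ℝ} (hχ : ∀ n, IsTest Ω (χ n))
    (h : ∀ f : Fld Ω, Tendsto (fun n => pr f (χ n)) atTop (𝓝 (pr f χ0))) :
    ∃ C, ∀ n, ‖(Vale.Agent.P155.Uq.memLp_test (Ω := Ω) (hχ n)).toLp (χ n)‖ ≤ C := by
  obtain ⟨C, hC⟩ := banach_steinhaus (𝕜 := ℝ) (𝕜₂ := ℝ) (σ₁₂ := RingHom.id ℝ)
    (g := fun n => innerSL ℝ ((Vale.Agent.P155.Uq.memLp_test (Ω := Ω) (hχ n)).toLp (χ n))) (by
      intro f
      obtain ⟨C, hC⟩ := (h f).norm.bddAbove_range
      refine ⟨C, fun n => ?_⟩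
      have h1 := hC ⟨n, rfl⟩
      rw [innerSL_apply_apply, ← Vale.Agent.P155.Uq.pr_eq_inner f (hχ n)]
      exact h1)
  refine ⟨C, fun n => ?_⟩
  have h1 := hC n
  rwa [innerSL_apply_norm] at h1

/-- **(K1)(e)** -/
theorem tendsto_SS (hΩ : IsOpen Ω) (hb : Bornology.IsBounded Ω) {χ : ℕ → ℂ → ℝ} {χ0 : ℂ → ℝ}
    (hχ : ∀ n, IsTest Ω (χ n))
    (h : ∀ f : Fld Ω, Tendsto (fun n => pr f (χ n)) atTop (𝓝 (pr f χ0)))
    (A : NonemptyCompacts ℂ) : Tendsto (fun n => SS Ω (χ n) A) atTop (𝓝 (SS Ω χ0 A)) := by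
  obtain ⟨C, hC⟩ := bdd_of_pr hχ h
  choose f hf hfn using exists_ind hΩ hb A
  have e : ∀ i n, (∫ z in hol Ω A i, χ n z) ^ 2 = (pr (f i) (χ n)) ^ 2 := fun i n => by
    rw [hf]
  unfold SS
  refine tendsto_tsum_of_dominated_convergence
    (bound := fun i => C ^ 2 * volume.real (hol Ω A i)) ((summable_vol hΩ hb A).mul_left _) ?_ ?_
  · intro i
    have h1 := (h (f i)).pow 2
    simp only [hf] at h1
    exact h1
  · refine Eventually.of_forall fun n i => ?_
    rw [e, Real.norm_eq_abs, abs_of_nonneg (sq_nonneg _), Vale.Agent.P155.Uq.pr_eq_inner (f i) (hχ n), ← hfn i,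
      ← sq_abs, ← mul_pow]
    refine pow_le_pow_left₀ (abs_nonneg _) ((abs_real_inner_le_norm _ _).trans ?_) 2
    exact mul_le_mul_of_nonneg_right (hC n) (norm_nonneg _)

end Vale.Agent.P155.SW733
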