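import Vale.Agent.P155.SW733.Conv
import Vale.Agent.P155.SW814.Bt

/-!
# P155, SW, block 3a: convergence of the distances to the explored sets
-/

namespace Vale.Agent.P155.SW733

open Topology Filter MeasureTheory TopologicalSpace Vale.Agent.P155 Q1 SW905 LatCycle

theorem infDist_le_of_sub {A B : Set ℂ} (hA : A.Nonempty) {ε : ℝ} (h : A ⊆ Metric.thickening ε B)
    (z : ℂ) : Metric.infDist z B ≤ Metric.infDist z A + ε := by
  have h1 : Metric.infDist z B - ε ≤ Metric.infDist z A := by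
    refine (Metric.le_infDist hA).2 fun y hy => ?_
    obtain ⟨b, hb, hd⟩ := Metric.mem_thickening_iff.1 (h hy)
    have h2 := Metric.infDist_le_dist_of_mem (x := z) hb
    have h3 := dist_triangle z y b
    linarith
  linarith

theorem preconnected_cthickening {K : Set ℂ} (hK : IsClosed K) (hc : IsConnected K) {t : ℝ}
    (ht : 0 ≤ t) : IsPreconnected (Metric.cthickening t K) := by
  obtain ⟨x0, hx0⟩ := hc.nonempty
  refine isPreconnected_of_forall x0 fun y hy => ?_
  rw [hK.cthickening_eq_biUnion_closedBall ht, Set.mem_iUnion₂] at hy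
  obtain ⟨x, hx, hyx⟩ := hy
  refine ⟨K ∪ Metric.closedBall x t, ?_, Or.inl hx0, Or.inr hyx, ?_⟩
  · rintro w (hw | hw)
    · exact Metric.self_subset_cthickening K hw
    · rw [hK.cthickening_eq_biUnion_closedBall ht, Set.mem_iUnion₂]
      exact ⟨x, hx, hw⟩
  · exact hc.isPreconnected.union x hx (Metric.mem_closedBall_self ht)
      (convex_closedBall x t).isPreconnected

theorem inter_frontier {s U : Set ℂ} (hs : IsPreconnected s) (h1 : (s ∩ U).Nonempty)
    (h2 : (s ∩ Uᶜ).Nonempty) : (s ∩ frontier U).Nonempty := by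
  by_contra hcon
  rw [Set.not_nonempty_iff_eq_empty] at hcon
  have hno : ∀ x ∈ s, x ∉ frontier U := fun x hx hf =>
    Set.notMem_empty x (hcon ▸ (⟨hx, hf⟩ : x ∈ s ∩ frontier U))
  have hin : ∀ x ∈ s, x ∈ closure U → x ∈ interior U := fun x hx hc => by
    by_contra h
    exact hno x hx ⟨hc, h⟩
  obtain ⟨x, hx, hxU⟩ := h1
  obtain ⟨y, hy, hyU⟩ := h2
  obtain ⟨w, hw, hw1, hw2⟩ := hs (interior U) (closure U)ᶜ isOpen_interior
    isClosed_closure.isOpen_compl (fun p hp => by
      by_cases h : p ∈ closure U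
      · exact Or.inl (hin p hp h)
      · exact Or.inr h)
    ⟨x, hx, hin x hx (subset_closure hxU)⟩
    ⟨y, hy, fun h => hyU (interior_subset (hin y hy h))⟩
  exact hw2 (interior_subset_closure hw1)

/-- generic levels are generic -/
theorem gen_of_goodT {Ω : Set ℂ} {A : Set ℂ} {K : Set ℂ} (hc : IsConnected K) (hΩK : Ωᶜ ⊆ K)
    (hb : Bornology.IsBounded Ω) {t : ℝ} (ht : 0 < t) (h : SW814.GoodT Ω A K t) :
    Gen Ω A (Metric.cthickening t K) := by
  intro U hU hm
  obtain ⟨w, hwU, hwd⟩ := h U hU hm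
  obtain ⟨k, hk, hkd⟩ := (Metric.infDist_lt_iff hc.nonempty).1 hwd
  have hUΩ : U ⊆ Ω := by
    obtain ⟨z, _, rfl⟩ := hU
    exact (connectedComponentIn_subset _ _).trans fun w hw => hw.1
  have key : ∃ w' ∈ frontier U, Metric.infDist w' K < t := by
    by_cases hkU : k ∈ U
    · obtain ⟨w0, hw0⟩ : ∃ w0, w0 ∉ Ω := by
        by_contra hcon
        push Not at hcon
        have : Bornology.IsBounded (Set.univ : Set ℂ) := hb.subset fun x _ => hcon x
        exact NormedSpace.unbounded_univ ℂ ℂ this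
      obtain ⟨w', hw', hf⟩ := inter_frontier (U := U) hc.isPreconnected ⟨k, hk, hkU⟩
        ⟨w0, hΩK hw0, fun h => hw0 (hUΩ h)⟩
      exact ⟨w', hf, by rw [Metric.infDist_zero_of_mem hw']; exact ht⟩
    · obtain ⟨w', hw', hf⟩ := inter_frontier (U := U) (convex_segment (𝕜 := ℝ) w k).isPreconnected
        ⟨w, left_mem_segment ℝ w k, hwU⟩ ⟨k, right_mem_segment ℝ w k, hkU⟩
      refine ⟨w', hf, (Metric.infDist_le_dist_of_mem hk).trans_lt ?_⟩
      have h1 : w' ∈ Metric.ball k t := (convex_ball k t).segment_subset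
        (Metric.mem_ball.2 hkd) (Metric.mem_ball_self ht) hw'
      exact h1
  obtain ⟨w', hf, hd⟩ := key
  refine ⟨w', hf, ?_⟩
  have h2 : w' ∈ Metric.thickening t K := (Metric.mem_thickening_iff_infDist_lt hc.nonempty).2 hd
  exact interior_maximal (Metric.thickening_subset_cthickening t K) Metric.isOpen_thickening h2

variable {Ω : Set ℂ} {S : TempApprox Ω} {n : ℕ → ℕ} {ω : ℕ → Conf} {G : ℕ → NonemptyCompacts ℂ}
  {Γ : LoopColl}

/-- **Block 3a.** -/
theorem conv_KK (hp : EX.Pre Ω S n ω G) (hH : HoleLoops Ω G Γ) {K : Set ℂ} (hK : IsClosed K)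
    (hc : IsConnected K) (hΩK : Ωᶜ ⊆ K) {t : ℝ} (ht : 0 < t) (hgt : SW814.GoodT Ω (G 1) K t)
    {ε : ℝ} (hε : 0 < ε) : ∀ᶠ j in atTop, ∀ z,
    |Metric.infDist z (kkd (S.δ (n j)) (S.a (n j)) (Metric.cthickening t K) (ω j)) -
      Metric.infDist z (SW814.KK Ω (G 1) K t)| ≤ ε := by
  have hne : (Metric.cthickening t K).Nonempty := hc.nonempty.mono (Metric.self_subset_cthickening K)
  filter_upwards [HKK_near hp.good hH (gen_of_goodT hc hΩK hp.good.bdd ht hgt) hε,
    kkd_near hp hH Metric.isClosed_cthickening (preconnected_cthickening hK hc ht.le)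
      (hΩK.trans (Metric.self_subset_cthickening K)) hε] with j h1 h2 z
  have hn1 : (HKK Ω (G 1) (Metric.cthickening t K)).Nonempty := hne.mono fun _ h => Or.inl h
  have hn2 : (kkd (S.δ (n j)) (S.a (n j)) (Metric.cthickening t K) (ω j)).Nonempty :=
    hne.mono fun _ h => Or.inl h
  have h3 := infDist_le_of_sub hn1 h1 z
  have h4 := infDist_le_of_sub hn2 h2 z
  rw [abs_le]
  have e : SW814.KK Ω (G 1) K t = HKK Ω (G 1) (Metric.cthickening t K) := rfl
  rw [e]
  constructor <;> linarith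

/-- the same, for a fixed point -/
theorem tendsto_KK (hp : EX.Pre Ω S n ω G) (hH : HoleLoops Ω G Γ) {K : Set ℂ} (hK : IsClosed K)
    (hc : IsConnected K) (hΩK : Ωᶜ ⊆ K) {t : ℝ} (ht : 0 < t) (hgt : SW814.GoodT Ω (G 1) K t)
    (z : ℂ) : Tendsto (fun j =>
      Metric.infDist z (kkd (S.δ (n j)) (S.a (n j)) (Metric.cthickening t K) (ω j))) atTop
      (𝓝 (Metric.infDist z (SW814.KK Ω (G 1) K t))) := by
  rw [Metric.tendsto_nhds]
  intro ε hε
  filter_upwards [conv_KK hp hH hK hc hΩK ht hgt (half_pos hε)] with j hj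
  rw [Real.dist_eq]
  exact (hj z).trans_lt (by linarith)

/-- the distance to the explored set controls the event of block 2 -/
theorem disjoint_of_infDist {δ : ℝ} {a : ℂ} {A : Set ℂ} {ω : Conf} {m : ℕ} (z : Fin m → ℂ)
    (I : Finset (Fin m)) (r : Fin m → ℝ)
    (h : ∀ i ∈ I, r i < Metric.infDist (z i) (kkd δ a A ω)) :
    Disjoint (kkd δ a A ω) (⋃ i ∈ I, Metric.closedBall (z i) (r i)) := by
  rw [Set.disjoint_left]
  intro w hw hwB
  rw [Set.mem_iUnion₂] at hwB
  obtain ⟨i, hi, hwi⟩ := hwB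
  have h1 := Metric.infDist_le_dist_of_mem (x := z i) hw
  rw [Metric.mem_closedBall, dist_comm] at hwi
  linarith [h i hi]

/-- **Block 2 in the form needed for SDL**: `F ω = f (infDist (z i) (kkd ω))` is invariant under
changes inside the balls of radius `r i`, if `f y ≠ 0` implies `r i < y i`. -/
theorem inv_f {V : Finset Pt} {δ : ℝ} {a : ℂ} {A : Set ℂ} (hδ : 0 < δ) {m : ℕ} (z : Fin m → ℂ)
    (I : Finset (Fin m)) (r : Fin m → ℝ) (f : (Fin m → ℝ) → ℝ)
    (hf : ∀ y, f y ≠ 0 → ∀ i ∈ I, r i < y i) :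
    ∀ ω ∈ DD V, ∀ ω' ∈ DD V,
      (∀ v, v ∉ vs δ a (⋃ i ∈ I, Metric.closedBall (z i) (r i)) →
        ω'.1 v = ω.1 v ∧ ω'.2 v = ω.2 v) →
      f (fun i => Metric.infDist (z i) (kkd δ a A ω')) =
        f (fun i => Metric.infDist (z i) (kkd δ a A ω)) := by
  intro ω hω ω' hω' he
  have he' : Eqv (vs δ a (⋃ i ∈ I, Metric.closedBall (z i) (r i))) ω ω' := he
  by_cases h : f (fun i => Metric.infDist (z i) (kkd δ a A ω)) = 0
  · by_cases h' : f (fun i => Metric.infDist (z i) (kkd δ a A ω')) = 0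
    · rw [h, h']
    · have hd := disjoint_of_infDist z I r (fun i hi => hf _ h' i hi)
      rw [kkd_eq hδ hω' hω he'.symm hd]
  · have hd := disjoint_of_infDist z I r (fun i hi => hf _ h i hi)
    rw [kkd_eq hδ hω hω' he' hd]

end Vale.Agent.P155.SW733
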